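import Mathlib

/-!
P022-L3, row [RGOOD], the abstract half: a bounded homomorphism `r : G → GL_2(E)` (`E`
ultrametric, `‖2‖ < 1`) with `‖tr r(g)‖ < 1`, `‖det r(g) - 1‖ < 1`.
-/

open Matrix

namespace Vale.Agent.P022.H23.RG

variable {E : Type*} [NontriviallyNormedField E] [IsUltrametricDist E]

/-- all entries have norm at most `c` -/
def Bd (A : Matrix (Fin 2) (Fin 2) E) (c : ℝ) : Prop := ∀ i j, ‖A i j‖ ≤ c

omit [IsUltrametricDist E] in
lemma Bd.mono {A : Matrix (Fin 2) (Fin 2) E} {a b : ℝ} (h : Bd A a) (hab : a ≤ b) : Bd A b :=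
  fun i j => (h i j).trans hab

omit [IsUltrametricDist E] in
lemma Bd.nonneg {A : Matrix (Fin 2) (Fin 2) E} {a : ℝ} (h : Bd A a) : 0 ≤ a :=
  (norm_nonneg _).trans (h 0 0)

lemma nadd {x y : E} {c : ℝ} (hx : ‖x‖ ≤ c) (hy : ‖y‖ ≤ c) : ‖x + y‖ ≤ c :=
  (IsUltrametricDist.norm_add_le_max x y).trans (max_le hx hy)

lemma nsub {x y : E} {c : ℝ} (hx : ‖x‖ ≤ c) (hy : ‖y‖ ≤ c) : ‖x - y‖ ≤ c := by
  rw [sub_eq_add_neg]
  exact nadd hx (by rwa [norm_neg])

lemma Bd.add {A B : Matrix (Fin 2) (Fin 2) E} {c : ℝ} (hA : Bd A c) (hB : Bd B c) :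
    Bd (A + B) c := fun i j => nadd (hA i j) (hB i j)

lemma Bd.sub {A B : Matrix (Fin 2) (Fin 2) E} {c : ℝ} (hA : Bd A c) (hB : Bd B c) :
    Bd (A - B) c := fun i j => nsub (hA i j) (hB i j)

lemma Bd.mul {A B : Matrix (Fin 2) (Fin 2) E} {a b : ℝ} (hA : Bd A a) (hB : Bd B b) :
    Bd (A * B) (a * b) := by
  intro i j
  rw [Matrix.mul_apply, Fin.sum_univ_two]
  have h : ∀ k, ‖A i k * B k j‖ ≤ a * b := fun k => by
    rw [norm_mul]
    exact mul_le_mul (hA i k) (hB k j) (norm_nonneg _) hA.nonneg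
  exact nadd (h 0) (h 1)

omit [IsUltrametricDist E] in
lemma Bd.smul {A : Matrix (Fin 2) (Fin 2) E} {a : ℝ} (hA : Bd A a) (x : E) {c : ℝ}
    (hx : ‖x‖ ≤ c) : Bd (x • A) (c * a) := by
  intro i j
  rw [Matrix.smul_apply, smul_eq_mul, norm_mul]
  exact mul_le_mul hx (hA i j) (norm_nonneg _) ((norm_nonneg _).trans hx)

omit [IsUltrametricDist E] in
lemma bd_one : Bd (1 : Matrix (Fin 2) (Fin 2) E) 1 := by
  intro i j
  rw [Matrix.one_apply]
  split_ifs
  · rw [norm_one]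
  · rw [norm_zero]
    exact zero_le_one

lemma Bd.trace {A : Matrix (Fin 2) (Fin 2) E} {a : ℝ} (hA : Bd A a) : ‖A.trace‖ ≤ a := by
  rw [Matrix.trace_fin_two]
  exact nadd (hA 0 0) (hA 1 1)

lemma Bd.det {A : Matrix (Fin 2) (Fin 2) E} {a : ℝ} (hA : Bd A a) : ‖A.det‖ ≤ a * a := by
  rw [Matrix.det_fin_two]
  have h : ∀ i j k l, ‖A i j * A k l‖ ≤ a * a := fun i j k l => by
    rw [norm_mul]
    exact mul_le_mul (hA i j) (hA k l) (norm_nonneg _) hA.nonneg
  exact nsub (h _ _ _ _) (h _ _ _ _)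

/-- `det(1 + X) - 1` -/
lemma det_sub_one {A : Matrix (Fin 2) (Fin 2) E} {δ : ℝ} (hA : Bd (A - 1) δ) (hδ : δ ≤ 1) :
    ‖A.det - 1‖ ≤ δ := by
  have h1 : A.det - 1 = (A - 1).trace + (A - 1).det := by
    rw [Matrix.det_fin_two, Matrix.det_fin_two, Matrix.trace_fin_two]
    simp only [Matrix.sub_apply, Matrix.one_apply_eq, Matrix.one_apply_ne, ne_eq, zero_ne_one,
      one_ne_zero, not_false_eq_true, sub_zero]
    ring
  rw [h1]
  exact nadd hA.trace (hA.det.trans (by nlinarith [hA.nonneg]))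

/-- Cayley-Hamilton for the square -/
lemma sq_eq (A : Matrix (Fin 2) (Fin 2) E) :
    (A - 1) * (A - 1) = (A.trace - 2) • A - (A.det - 1) • 1 := by
  ext i j
  rw [Matrix.det_fin_two, Matrix.trace_fin_two]
  fin_cases i <;> fin_cases j <;>
    simp [Matrix.mul_apply, Fin.sum_univ_two, Matrix.one_apply] <;> ring

lemma trace_sq (A : Matrix (Fin 2) (Fin 2) E) : (A * A).trace = A.trace ^ 2 - 2 * A.det := by
  rw [Matrix.det_fin_two, Matrix.trace_fin_two, Matrix.trace_fin_two, Matrix.mul_apply,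
    Matrix.mul_apply, Fin.sum_univ_two, Fin.sum_univ_two]
  ring

/-- **the powers `A^(2^k)` tend to 1**, with a speed which depends only on trace and determinant -/
theorem pow_bd {A : Matrix (Fin 2) (Fin 2) E} {q M : ℝ} (h2 : ‖(2 : E)‖ ≤ q) (hq : q ≤ 1)
    (hM : 1 ≤ M) (ht : ‖A.trace - 2‖ ≤ q) (hd : ‖A.det - 1‖ ≤ q) (hb : ∀ n : ℕ, Bd (A ^ n) M)
    (k : ℕ) : ‖(A ^ 2 ^ k).trace - 2‖ ≤ q ^ (k + 1) ∧ ‖(A ^ 2 ^ k).det - 1‖ ≤ q ^ (k + 1) ∧
      Bd (A ^ 2 ^ k - 1) (M * q ^ k) := by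
  have hq0 : 0 ≤ q := (norm_nonneg _).trans h2
  induction k with
  | zero =>
    rw [pow_zero, pow_one, zero_add, pow_one, pow_zero, mul_one]
    refine ⟨ht, hd, ?_⟩
    have h := hb 1
    rw [pow_one] at h
    exact h.sub (bd_one.mono hM)
  | succ k ih =>
    obtain ⟨i1, i2, i3⟩ := ih
    have hA : A ^ 2 ^ (k + 1) = A ^ 2 ^ k * A ^ 2 ^ k := by rw [← pow_add]; congr 1; ring
    have hBM : Bd (A ^ 2 ^ k) M := hb _
    rw [hA]
    generalize A ^ 2 ^ k = B at i1 i2 i3 hBM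
    have hqk : q ^ (k + 1) ≤ q := by
      calc q ^ (k + 1) ≤ q ^ 1 := pow_le_pow_of_le_one hq0 hq (by omega)
        _ = q := pow_one q
    have hqk0 : 0 ≤ q ^ (k + 1) := pow_nonneg hq0 _
    have e2 : q ^ (k + 1 + 1) = q ^ (k + 1) * q := pow_succ q (k + 1)
    refine ⟨?_, ?_, ?_⟩
    · have e : (B * B).trace - 2 = (B.trace - 2) * ((B.trace - 2) + 2 * 2) - 2 * (B.det - 1) := by
        rw [trace_sq]
        ring
      rw [e, e2]
      refine nsub ?_ ?_
      · rw [norm_mul]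
        refine mul_le_mul i1 (nadd (i1.trans hqk) ?_) (norm_nonneg _) hqk0
        rw [norm_mul]
        nlinarith [norm_nonneg (2 : E)]
      · rw [norm_mul, mul_comm (q ^ (k + 1))]
        exact mul_le_mul h2 i2 (norm_nonneg _) hq0
    · have e : (B * B).det - 1 = (B.det - 1) * ((B.det - 1) + 2) := by
        rw [Matrix.det_mul]
        ring
      rw [e, e2, norm_mul]
      exact mul_le_mul i2 (nadd (i2.trans hqk) h2) (norm_nonneg _) hqk0
    · have e : B * B - 1 = ((B.trace - 2) • B - (B.det - 1) • 1) + (2 : E) • (B - 1) := by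
        rw [← sq_eq]
        have h3 : (2 : E) • (B - 1) = (B - 1) + (B - 1) := two_smul E (B - 1)
        rw [h3]
        noncomm_ring
      rw [e]
      have e3 : M * q ^ (k + 1) = q ^ (k + 1) * M := mul_comm _ _
      have e4 : M * q ^ (k + 1) = q * (M * q ^ k) := by rw [pow_succ]; ring
      refine Bd.add (Bd.sub ?_ ?_) ?_
      · rw [e3]
        exact hBM.smul _ i1
      · have h4 := (bd_one (E := E)).smul (B.det - 1) i2
        refine h4.mono ?_
        rw [mul_one]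
        nlinarith
      · rw [e4]
        exact i3.smul _ h2

section grp

variable {G : Type*} [Group G]

/-- the elements all of whose conjugates are `δ`-close to 1 -/
def U (r : G →* GL (Fin 2) E) (δ : ℝ) (h0 : 0 ≤ δ) (h1 : δ < 1) : Subgroup G where
  carrier := {u | ∀ g : G, Bd ((r (g * u * g⁻¹) : Matrix (Fin 2) (Fin 2) E) - 1) δ}
  one_mem' := by
    intro g i j
    rw [mul_one, mul_inv_cancel, map_one, Units.val_one, sub_self, Matrix.zero_apply, norm_zero]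
    exact h0
  mul_mem' := by
    intro u v hu hv g
    have e : g * (u * v) * g⁻¹ = (g * u * g⁻¹) * (g * v * g⁻¹) := by group
    rw [e, map_mul, Units.val_mul]
    have e2 : ((r (g * u * g⁻¹) : Matrix (Fin 2) (Fin 2) E) * (r (g * v * g⁻¹) :
        Matrix (Fin 2) (Fin 2) E)) - 1 =
        ((r (g * u * g⁻¹) : Matrix (Fin 2) (Fin 2) E) - 1) * ((r (g * v * g⁻¹) :
          Matrix (Fin 2) (Fin 2) E) - 1) + (((r (g * u * g⁻¹) : Matrix (Fin 2) (Fin 2) E) - 1) +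
            ((r (g * v * g⁻¹) : Matrix (Fin 2) (Fin 2) E) - 1)) := by noncomm_ring
    rw [e2]
    refine Bd.add (((hu g).mul (hv g)).mono ?_) ((hu g).add (hv g))
    nlinarith
  inv_mem' := by
    intro u hu g
    have e : g * u⁻¹ * g⁻¹ = (g * u * g⁻¹)⁻¹ := by group
    rw [e, map_inv]
    have hA := hu g
    generalize r (g * u * g⁻¹) = A at hA
    have h3 : (A : Matrix (Fin 2) (Fin 2) E) * (A⁻¹ : GL (Fin 2) E) = 1 := by
      rw [← Units.val_mul, mul_inv_cancel, Units.val_one]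
    generalize ((A⁻¹ : GL (Fin 2) E) : Matrix (Fin 2) (Fin 2) E) = Y at h3
    have h4 : Y - 1 = -((A : Matrix (Fin 2) (Fin 2) E) - 1) -
        ((A : Matrix (Fin 2) (Fin 2) E) - 1) * (Y - 1) := by
      have h5 : ((A : Matrix (Fin 2) (Fin 2) E) - 1) * (Y - 1) =
          (A : Matrix (Fin 2) (Fin 2) E) * Y - A - Y + 1 := by noncomm_ring
      rw [h5, h3]
      abel
    obtain ⟨p, hp⟩ := Finite.exists_max (fun p : Fin 2 × Fin 2 => ‖(Y - 1) p.1 p.2‖)
    have hY : Bd (Y - 1) ‖(Y - 1) p.1 p.2‖ := fun i j => hp (i, j)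
    have hn : Bd (-((A : Matrix (Fin 2) (Fin 2) E) - 1)) δ := fun i j => by
      rw [Matrix.neg_apply, norm_neg]
      exact hA i j
    refine hY.mono ?_
    by_contra hlt
    rw [not_le] at hlt
    have h6 : Bd (Y - 1) (max δ (δ * ‖(Y - 1) p.1 p.2‖)) := by
      rw [h4]
      refine Bd.sub (hn.mono (le_max_left _ _)) ?_
      rw [← h4]
      exact (hA.mul hY).mono (le_max_right _ _)
    have h7 := h6 p.1 p.2
    rcases le_max_iff.1 h7 with h8 | h8
    · exact absurd h8 (not_le.2 hlt)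
    · nlinarith [h0.trans_lt hlt]

lemma mem_U {r : G →* GL (Fin 2) E} {δ : ℝ} {h0 : 0 ≤ δ} {h1 : δ < 1} {u : G} :
    u ∈ U r δ h0 h1 ↔ ∀ g : G, Bd ((r (g * u * g⁻¹) : Matrix (Fin 2) (Fin 2) E) - 1) δ := Iff.rfl

lemma U_normal (r : G →* GL (Fin 2) E) {δ : ℝ} (h0 : 0 ≤ δ) (h1 : δ < 1) :
    (U r δ h0 h1).Normal := by
  refine ⟨fun u hu h g => ?_⟩
  have e : g * (h * u * h⁻¹) * g⁻¹ = (g * h) * u * (g * h)⁻¹ := by group
  rw [e]
  exact hu (g * h)

/-- `G / U` is a 2-group -/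
lemma U_two (r : G →* GL (Fin 2) E) {δ : ℝ} (h0 : 0 < δ) (h1 : δ < 1) (h2 : ‖(2 : E)‖ < 1)
    {M : ℝ} (hM : 1 ≤ M) (hb : ∀ g, Bd (r g : Matrix (Fin 2) (Fin 2) E) M)
    (ht : ∀ g, ‖(r g : Matrix (Fin 2) (Fin 2) E).trace‖ < 1 ∧
      ‖(r g : Matrix (Fin 2) (Fin 2) E).det - 1‖ < 1) (x : G) :
    ∃ k : ℕ, x ^ 2 ^ k ∈ U r δ h0.le h1 := by
  set A : Matrix (Fin 2) (Fin 2) E := (r x : Matrix (Fin 2) (Fin 2) E) with hAdef
  set q : ℝ := max ‖(2 : E)‖ (max ‖A.trace - 2‖ ‖A.det - 1‖) with hqdef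
  have hq1 : q < 1 := by
    refine max_lt h2 (max_lt ?_ (ht x).2)
    have h3 : A.trace - 2 = A.trace + (-2) := sub_eq_add_neg _ _
    rw [h3]
    refine (IsUltrametricDist.norm_add_le_max _ _).trans_lt (max_lt (ht x).1 ?_)
    rwa [norm_neg]
  have hq0 : 0 ≤ q := (norm_nonneg (2 : E)).trans (le_max_left _ _)
  obtain ⟨k, hk⟩ := exists_pow_lt_of_lt_one (div_pos h0 (by linarith : 0 < M)) hq1
  refine ⟨k, fun g => ?_⟩
  have e : g * x ^ 2 ^ k * g⁻¹ = (g * x * g⁻¹) ^ 2 ^ k := by rw [conj_pow]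
  rw [e, map_pow, Units.val_pow_eq_pow_val]
  have hr : (r (g * x * g⁻¹) : Matrix (Fin 2) (Fin 2) E) =
      (r g : Matrix (Fin 2) (Fin 2) E) * A * (r g⁻¹ : Matrix (Fin 2) (Fin 2) E) := by
    rw [map_mul, map_mul, Units.val_mul, Units.val_mul]
  have hrr : (r g⁻¹ : Matrix (Fin 2) (Fin 2) E) * (r g : Matrix (Fin 2) (Fin 2) E) = 1 := by
    rw [← Units.val_mul, ← map_mul, inv_mul_cancel, map_one, Units.val_one]
  have htr : (r (g * x * g⁻¹) : Matrix (Fin 2) (Fin 2) E).trace = A.trace := by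
    rw [hr, Matrix.trace_mul_comm, ← Matrix.mul_assoc, hrr, Matrix.one_mul]
  have hdet : (r (g * x * g⁻¹) : Matrix (Fin 2) (Fin 2) E).det = A.det := by
    rw [hr, Matrix.det_mul, Matrix.det_mul, mul_comm, ← mul_assoc, ← Matrix.det_mul, hrr,
      Matrix.det_one, one_mul]
  have h3 := (pow_bd (A := (r (g * x * g⁻¹) : Matrix (Fin 2) (Fin 2) E)) (q := q) (M := M)
    (le_max_left _ _) hq1.le hM (by rw [htr]; exact (le_max_left _ _).trans (le_max_right _ _))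
    (by rw [hdet]; exact (le_max_right _ _).trans (le_max_right _ _)) (fun n => by
      rw [← Units.val_pow_eq_pow_val, ← map_pow]
      exact hb _) k).2.2
  refine h3.mono ?_
  rw [lt_div_iff₀ (by linarith : 0 < M)] at hk
  nlinarith

/-- traces and determinants are constant modulo `U` -/
lemma U_tr (r : G →* GL (Fin 2) E) {δ : ℝ} (h0 : 0 ≤ δ) (h1 : δ < 1) {M : ℝ} (hM : 1 ≤ M)
    (hb : ∀ g, Bd (r g : Matrix (Fin 2) (Fin 2) E) M) (g : G) {u : G} (hu : u ∈ U r δ h0 h1) :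
    ‖(r (g * u) : Matrix (Fin 2) (Fin 2) E).trace - (r g : Matrix (Fin 2) (Fin 2) E).trace‖ ≤
      M * M * δ ∧
    ‖(r (g * u) : Matrix (Fin 2) (Fin 2) E).det - (r g : Matrix (Fin 2) (Fin 2) E).det‖ ≤
      M * M * δ := by
  have hu1 : Bd ((r u : Matrix (Fin 2) (Fin 2) E) - 1) δ := by
    have h := hu 1
    rwa [one_mul, inv_one, mul_one] at h
  rw [map_mul, Units.val_mul]
  constructor
  · have e : ((r g : Matrix (Fin 2) (Fin 2) E) * (r u : Matrix (Fin 2) (Fin 2) E)).trace -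
        (r g : Matrix (Fin 2) (Fin 2) E).trace =
        ((r g : Matrix (Fin 2) (Fin 2) E) * ((r u : Matrix (Fin 2) (Fin 2) E) - 1)).trace := by
      rw [Matrix.mul_sub, Matrix.mul_one, Matrix.trace_sub]
    rw [e]
    refine (((hb g).mul hu1).trace).trans ?_
    nlinarith [mul_nonneg (by linarith : 0 ≤ M) h0]
  · have e : ((r g : Matrix (Fin 2) (Fin 2) E) * (r u : Matrix (Fin 2) (Fin 2) E)).det -
        (r g : Matrix (Fin 2) (Fin 2) E).det =
        (r g : Matrix (Fin 2) (Fin 2) E).det * ((r u : Matrix (Fin 2) (Fin 2) E).det - 1) := by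
      rw [Matrix.det_mul]
      ring
    rw [e, norm_mul]
    exact mul_le_mul (hb g).det (det_sub_one hu1 h1.le) (norm_nonneg _) (by nlinarith)

end grp

end Vale.Agent.P022.H23.RG
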