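import Vale.Agent.P022.H132.L3.Defs
import Vale.Agent.P022.H23.L3.Abs

/-!
P022-L3, row [RGOOD]: the traces of a residually trivial `r` are continuous for the groups `Good`.
-/

open scoped NumberField
open Matrix Topology

noncomputable section

namespace Vale.Agent.P022.H23.L3

open Vale.Agent.P022 Vale.Agent.P022.H132.Z Vale.Agent.P022.H23.RG

lemma compactSpace_GQ : CompactSpace GQ := by
  have h1 : Algebra.IsAlgebraic ℚ Qb := AlgebraicClosure.isAlgebraic ℚ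
  have h2 : IsAlgClosure ℚ Qb := ⟨inferInstance, inferInstance⟩
  have h3 : IsGalois ℚ Qb := IsAlgClosure.isGalois ℚ Qb
  infer_instance

variable {E : Type*} [NontriviallyNormedField E]

lemma continuous_entry {r : GQ →* GL (Fin 2) E} (hc : Continuous r) (i j : Fin 2) :
    Continuous fun g => (r g : Matrix (Fin 2) (Fin 2) E) i j :=
  (Units.continuous_val.comp hc).matrix_elem i j

/-- `r` is bounded -/
lemma exists_bd {r : GQ →* GL (Fin 2) E} (hc : Continuous r) :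
    ∃ M : ℝ, 1 ≤ M ∧ ∀ g, Bd (r g : Matrix (Fin 2) (Fin 2) E) M := by
  have := compactSpace_GQ
  have h : ∀ i j : Fin 2, ∃ C : ℝ, ∀ g : GQ, ‖(r g : Matrix (Fin 2) (Fin 2) E) i j‖ ≤ C := by
    intro i j
    obtain ⟨C, hC⟩ := isCompact_univ.exists_bound_of_continuousOn
      (continuous_entry hc i j).continuousOn
    exact ⟨C, fun g => hC g (Set.mem_univ g)⟩
  choose C hC using h
  refine ⟨1 + ∑ i, ∑ j, |C i j|, ?_, fun g i j => (hC i j g).trans ?_⟩
  · have : 0 ≤ ∑ i, ∑ j, |C i j| :=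
      Finset.sum_nonneg fun i _ => Finset.sum_nonneg fun j _ => abs_nonneg _
    linarith
  · have h1 : |C i j| ≤ ∑ j, |C i j| :=
      Finset.single_le_sum (f := fun j => |C i j|) (fun _ _ => abs_nonneg _) (Finset.mem_univ j)
    have h2 : ∑ j, |C i j| ≤ ∑ i, ∑ j, |C i j| :=
      Finset.single_le_sum (f := fun i => ∑ j, |C i j|)
        (fun _ _ => Finset.sum_nonneg fun _ _ => abs_nonneg _) (Finset.mem_univ i)
    linarith [le_abs_self (C i j)]

variable [IsUltrametricDist E]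

/-- `U` is open -/
lemma isOpen_U {r : GQ →* GL (Fin 2) E} (hc : Continuous r) {δ : ℝ} (h0 : 0 < δ) (h1 : δ < 1)
    {M : ℝ} (hM : 1 ≤ M) (hb : ∀ g, Bd (r g : Matrix (Fin 2) (Fin 2) E) M) :
    IsOpen (U r δ h0.le h1 : Set GQ) := by
  refine Subgroup.isOpen_of_mem_nhds _ (g := 1) ?_
  have hpos : 0 < δ / (M * M) := div_pos h0 (by nlinarith)
  have h2 : ∀ i j : Fin 2, ∀ᶠ u : GQ in 𝓝 1,
      ‖((r u : Matrix (Fin 2) (Fin 2) E) - 1) i j‖ < δ / (M * M) := by
    intro i j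
    have h3 : Continuous fun u : GQ => ‖((r u : Matrix (Fin 2) (Fin 2) E) - 1) i j‖ := by
      have h4 := (continuous_entry hc i j).sub
        (continuous_const (y := (1 : Matrix (Fin 2) (Fin 2) E) i j))
      exact h4.norm
    have h5 : ‖((r 1 : Matrix (Fin 2) (Fin 2) E) - 1) i j‖ < δ / (M * M) := by
      rw [map_one, Units.val_one, sub_self, Matrix.zero_apply, norm_zero]
      exact hpos
    exact h3.continuousAt.eventually_lt continuousAt_const h5
  have h6 : ∀ᶠ u : GQ in 𝓝 1, ∀ i j : Fin 2,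
      ‖((r u : Matrix (Fin 2) (Fin 2) E) - 1) i j‖ < δ / (M * M) :=
    Filter.eventually_all.2 fun i => Filter.eventually_all.2 fun j => h2 i j
  refine Filter.mem_of_superset h6 fun u hu => ?_
  intro g
  have h7 : Bd ((r u : Matrix (Fin 2) (Fin 2) E) - 1) (δ / (M * M)) := fun i j => (hu i j).le
  have hrr : (r g : Matrix (Fin 2) (Fin 2) E) * (r g⁻¹ : Matrix (Fin 2) (Fin 2) E) = 1 := by
    rw [← Units.val_mul, ← map_mul, mul_inv_cancel, map_one, Units.val_one]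
  have e : (r (g * u * g⁻¹) : Matrix (Fin 2) (Fin 2) E) - 1 =
      (r g : Matrix (Fin 2) (Fin 2) E) * ((r u : Matrix (Fin 2) (Fin 2) E) - 1) *
        (r g⁻¹ : Matrix (Fin 2) (Fin 2) E) := by
    rw [map_mul, map_mul, Units.val_mul, Units.val_mul, Matrix.mul_sub, Matrix.sub_mul,
      Matrix.mul_one, hrr]
  rw [e]
  refine (((hb g).mul h7).mul (hb g⁻¹)).mono (le_of_eq ?_)
  have : M ≠ 0 := by linarith
  field_simp

/-- **[RGOOD]**, ultrametric form -/
theorem rgood' (h2 : ‖(2 : E)‖ < 1) (r : GQ →* GL (Fin 2) E) (hc : Continuous r)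
    (hun : ∀ p : ℕ, p.Prime → p ≠ 2 → p ≠ 3 → UnrAt r p)
    (ht : ∀ g : GQ, ‖(r g : Matrix (Fin 2) (Fin 2) E).trace‖ < 1 ∧
      ‖(r g : Matrix (Fin 2) (Fin 2) E).det - 1‖ < 1) (ε : ℝ) (hε : 0 < ε) :
    ∃ U : Subgroup GQ, Good U ∧ ∀ g : GQ, ∀ u ∈ U,
      ‖(r (g * u) : Matrix (Fin 2) (Fin 2) E).trace -
        (r g : Matrix (Fin 2) (Fin 2) E).trace‖ < ε ∧
      ‖(r (g * u) : Matrix (Fin 2) (Fin 2) E).det - (r g : Matrix (Fin 2) (Fin 2) E).det‖ < ε := by
  obtain ⟨M, hM, hb⟩ := exists_bd hc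
  have hMM : 0 < M * M := by nlinarith
  have h0 : 0 < min (1 / 2) (ε / (2 * (M * M))) :=
    lt_min (by norm_num) (div_pos hε (by linarith))
  have h1 : min (1 / 2) (ε / (2 * (M * M))) < (1 : ℝ) := (min_le_left _ _).trans_lt (by norm_num)
  refine ⟨RG.U r _ h0.le h1, ⟨U_normal r h0.le h1, isOpen_U hc h0 h1 hM hb,
    U_two r h0 h1 h2 hM hb ht, ?_⟩, fun g u hu => ?_⟩
  · intro ℓ hℓ h6 P hP hm g hg
    have h3 : r g = 1 := by
      refine hun ℓ hℓ ?_ ?_ P hP hm g hg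
      · rintro rfl
        exact h6 (by norm_num)
      · rintro rfl
        exact h6 (by norm_num)
    intro x i j
    have h4 : r (x * g * x⁻¹) = 1 := by
      rw [map_mul, map_mul, h3, mul_one, ← map_mul, mul_inv_cancel, map_one]
    rw [h4, Units.val_one, sub_self, Matrix.zero_apply, norm_zero]
    exact h0.le
  · have h3 := U_tr r h0.le h1 hM hb g hu
    have h4 : M * M * min (1 / 2) (ε / (2 * (M * M))) < ε := by
      refine (mul_le_mul_of_nonneg_left (min_le_right _ _) hMM.le).trans_lt ?_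
      have h5 : M * M * (ε / (2 * (M * M))) = ε / 2 := by
        have : M ≠ 0 := by linarith
        field_simp
      rw [h5]
      linarith
    exact ⟨h3.1.trans_lt h4, h3.2.trans_lt h4⟩

omit [IsUltrametricDist E] in
lemma norm_two_lt [NormedAlgebra ℚ_[2] E] : ‖(2 : E)‖ < 1 := by
  have h : (2 : E) = algebraMap ℚ_[2] E 2 := by rw [map_ofNat]
  rw [h, norm_algebraMap']
  have h3 := Padic.norm_p (p := 2)
  rw [Nat.cast_ofNat] at h3
  rw [h3]
  norm_num

omit [IsUltrametricDist E] in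
/-- **[RGOOD]** -/
theorem rgood [NormedAlgebra ℚ_[2] E] (r : GQ →* GL (Fin 2) E) (hc : Continuous r)
    (hun : ∀ p : ℕ, p.Prime → p ≠ 2 → p ≠ 3 → UnrAt r p)
    (ht : ∀ g : GQ, ‖(r g : Matrix (Fin 2) (Fin 2) E).trace‖ < 1 ∧
      ‖(r g : Matrix (Fin 2) (Fin 2) E).det - 1‖ < 1) (ε : ℝ) (hε : 0 < ε) :
    ∃ U : Subgroup GQ, Good U ∧ ∀ g : GQ, ∀ u ∈ U,
      ‖(r (g * u) : Matrix (Fin 2) (Fin 2) E).trace -
        (r g : Matrix (Fin 2) (Fin 2) E).trace‖ < ε ∧
      ‖(r (g * u) : Matrix (Fin 2) (Fin 2) E).det - (r g : Matrix (Fin 2) (Fin 2) E).det‖ < ε := by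
  have : IsUltrametricDist E := IsUltrametricDist.of_normedAlgebra ℚ_[2]
  exact rgood' norm_two_lt r hc hun ht ε hε

omit [IsUltrametricDist E] in
/-- relations modulo all `Good U` hold for the trace of `r` -/
theorem trace_eq_of_good [NormedAlgebra ℚ_[2] E] (r : GQ →* GL (Fin 2) E) (hc : Continuous r)
    (hun : ∀ p : ℕ, p.Prime → p ≠ 2 → p ≠ 3 → UnrAt r p)
    (ht : ∀ g : GQ, ‖(r g : Matrix (Fin 2) (Fin 2) E).trace‖ < 1 ∧
      ‖(r g : Matrix (Fin 2) (Fin 2) E).det - 1‖ < 1) (x y : GQ)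
    (hxy : ∀ U : Subgroup GQ, Good U → x⁻¹ * y ∈ U) (g h : GQ) :
    (r (g * x * h) : Matrix (Fin 2) (Fin 2) E).trace =
        (r (g * y * h) : Matrix (Fin 2) (Fin 2) E).trace ∧
      (r (g * x * h) : Matrix (Fin 2) (Fin 2) E).det =
        (r (g * y * h) : Matrix (Fin 2) (Fin 2) E).det := by
  have key : ∀ ε : ℝ, 0 < ε → ‖(r (g * y * h) : Matrix (Fin 2) (Fin 2) E).trace -
      (r (g * x * h) : Matrix (Fin 2) (Fin 2) E).trace‖ < ε ∧
      ‖(r (g * y * h) : Matrix (Fin 2) (Fin 2) E).det -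
      (r (g * x * h) : Matrix (Fin 2) (Fin 2) E).det‖ < ε := by
    intro ε hε
    obtain ⟨U, hU, h1⟩ := rgood r hc hun ht ε hε
    have h2 : h⁻¹ * (x⁻¹ * y) * h ∈ U := by
      have h3 := hU.nor.conj_mem _ (hxy U hU) h⁻¹
      rwa [inv_inv] at h3
    have h4 := h1 (g * x * h) _ h2
    have e : g * x * h * (h⁻¹ * (x⁻¹ * y) * h) = g * y * h := by group
    rwa [e] at h4
  constructor
  · by_contra hne
    have h1 : 0 < ‖(r (g * y * h) : Matrix (Fin 2) (Fin 2) E).trace -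
        (r (g * x * h) : Matrix (Fin 2) (Fin 2) E).trace‖ :=
      norm_pos_iff.2 (sub_ne_zero.2 (Ne.symm hne))
    exact lt_irrefl _ (key _ h1).1
  · by_contra hne
    have h1 : 0 < ‖(r (g * y * h) : Matrix (Fin 2) (Fin 2) E).det -
        (r (g * x * h) : Matrix (Fin 2) (Fin 2) E).det‖ :=
      norm_pos_iff.2 (sub_ne_zero.2 (Ne.symm hne))
    exact lt_irrefl _ (key _ h1).2

end Vale.Agent.P022.H23.L3
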